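import Vale.Agent.P181.NR.Defs
import Vale.Agent.P181.SZR5.Minor

set_option autoImplicit false

/-!
# P181, NR (N1): labels exist
-/

open MvPolynomial

namespace Vale.Agent.P181.NR.H505

open Vale.Agent.P181.T4 (HW)
open Vale.Agent.P181.TL (KK)
open Vale.Agent.P181.SZR5

variable {m r n : ℕ}

/-- The positions of the columns. -/
def ka (hn : r + 4 ≤ n) (p q : ℕ) (hp : p < 4) (hq : q < 4) (b : Fin (r + 1)) : Fin n :=
  if (b : ℕ) = 0 then ⟨p, by omega⟩ else if (b : ℕ) = 1 then ⟨q, by omega⟩ else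
    ⟨(b : ℕ) + 2, by have := b.2; omega⟩

lemma ka_val (hn : r + 4 ≤ n) (p q : ℕ) (hp : p < 4) (hq : q < 4) (b : Fin (r + 1)) :
    (ka hn p q hp hq b : ℕ) = if (b : ℕ) = 0 then p else if (b : ℕ) = 1 then q else b + 2 := by
  unfold ka
  split_ifs <;> rfl

lemma ka_inj (hn : r + 4 ≤ n) (p q : ℕ) (hp : p < 4) (hq : q < 4) (hpq : p ≠ q) :
    Function.Injective (ka hn p q hp hq) := by
  intro b b' h
  have h1 := congrArg Fin.val h
  rw [ka_val, ka_val] at h1
  apply Fin.ext
  split_ifs at h1 <;> omega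

lemma ka_lt (hr2 : 2 ≤ r) (hn : r + 4 ≤ n) (p q : ℕ) (hp : p < 4) (hq : q < 4)
    (b : Fin (r + 1)) : (ka hn p q hp hq b : ℕ) < r + 3 := by
  rw [ka_val]
  have := b.2
  split_ifs <;> omega

/-- The product of the two minors of a term. -/
noncomputable def Te (hr : r < m) (hn : r + 4 ≤ n) (s : Fin n → Fin n) (p q p' q' : ℕ)
    (hp : p < 4) (hq : q < 4) (hp' : p' < 4) (hq' : q' < 4) : MvPolynomial (Fin m × Fin n) ℂ :=
  minor hr (fun b => s (ka hn p q hp hq b)) * minor hr (fun b => s (ka hn p' q' hp' hq' b))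

/-- The numerator of the cross ratio. -/
noncomputable def AA (hr : r < m) (hn : r + 4 ≤ n) (s : Fin n → Fin n) :
    MvPolynomial (Fin m × Fin n) ℂ :=
  Te hr hn s 0 2 1 3 (by omega) (by omega) (by omega) (by omega)

/-- The denominator of the cross ratio. -/
noncomputable def BB (hr : r < m) (hn : r + 4 ≤ n) (s : Fin n → Fin n) :
    MvPolynomial (Fin m × Fin n) ℂ :=
  Te hr hn s 0 3 1 2 (by omega) (by omega) (by omega) (by omega)

lemma ren_Te (hr : r < m) (hn : r + 4 ≤ n) (s e : Fin n → Fin n) (p q p' q' : ℕ)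
    (hp : p < 4) (hq : q < 4) (hp' : p' < 4) (hq' : q' < 4) :
    ren m e (Te hr hn s p q p' q' hp hq hp' hq') =
      Te hr hn (fun x => e (s x)) p q p' q' hp hq hp' hq' := by
  rw [Te, map_mul, minor_ren, minor_ren, Te]

/-- The column degree. -/
def dg (hn : r + 4 ≤ n) (s : Fin n → Fin n) (x : Fin n) : ℕ :=
  ∑ b : Fin (r + 1), ((if s (ka hn 0 2 (by omega) (by omega) b) = x then 1 else 0) +
    if s (ka hn 1 3 (by omega) (by omega) b) = x then 1 else 0)

lemma sum_single_ap {ι κ : Type} [Fintype ι] [DecidableEq κ] (c : ι → κ) (x : κ) :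
    (∑ b, Pi.single (c b) 1 : κ → ℕ) x = ∑ b, if c b = x then 1 else 0 := by
  rw [Finset.sum_apply]
  refine Finset.sum_congr rfl fun b _ => ?_
  rw [Pi.single_apply]
  by_cases h : c b = x
  · rw [if_pos h, if_pos h.symm]
  · rw [if_neg h, if_neg (Ne.symm h)]

/-- The weight. -/
def wt (m r : ℕ) (i : Fin m) : ℕ := if (i : ℕ) ≤ r then 1 else 0

lemma Te_mem (hr : r < m) (hn : r + 4 ≤ n) (s : Fin n → Fin n) (p q p' q' : ℕ)
    (hp : p < 4) (hq : q < 4) (hp' : p' < 4) (hq' : q' < 4) :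
    Te hr hn s p q p' q' hp hq hp' hq' ∈ KK m (Fin n)
      (fun x => ∑ b : Fin (r + 1), ((if s (ka hn p q hp hq b) = x then 1 else 0) +
        if s (ka hn p' q' hp' hq' b) = x then 1 else 0)) (wt m r + wt m r) := by
  refine ⟨HW_mul (minor_HW hr _) (minor_HW hr _), fun v hv x => ?_⟩
  rw [((minor_col hr fun b => s (ka hn p q hp hq b)).mul
    (minor_col hr fun b => s (ka hn p' q' hp' hq' b))) v hv x, Pi.add_apply, sum_single_ap,
    sum_single_ap, ← Finset.sum_add_distrib]

lemma AA_mem (hr : r < m) (hn : r + 4 ≤ n) (s : Fin n → Fin n) :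
    AA hr hn s ∈ KK m (Fin n) (dg hn s) (wt m r + wt m r) := Te_mem hr hn s _ _ _ _ _ _ _ _

lemma BB_mem (hr : r < m) (hn : r + 4 ≤ n) (hr2 : 2 ≤ r) (s : Fin n → Fin n) :
    BB hr hn s ∈ KK m (Fin n) (dg hn s) (wt m r + wt m r) := by
  have h := Te_mem hr hn s 0 3 1 2 (by omega) (by omega) (by omega) (by omega)
  have h2 : (fun x => ∑ b : Fin (r + 1),
      ((if s (ka hn 0 3 (by omega) (by omega) b) = x then 1 else 0) +
        if s (ka hn 1 2 (by omega) (by omega) b) = x then 1 else 0)) = dg hn s := by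
    funext x
    obtain ⟨r', rfl⟩ : ∃ r', r = r' + 1 := ⟨r - 1, by omega⟩
    rw [dg, Fin.sum_univ_succ, Fin.sum_univ_succ, Fin.sum_univ_succ (n := r' + 1),
      Fin.sum_univ_succ (n := r')]
    have e0 : ∀ (p q : ℕ) (hp : p < 4) (hq : q < 4),
        ka hn p q hp hq (0 : Fin (r' + 1 + 1)) = ⟨p, by omega⟩ := by
      intro p q hp hq
      apply Fin.ext
      rw [ka_val]
      rfl
    have e1 : ∀ (p q : ℕ) (hp : p < 4) (hq : q < 4),
        ka hn p q hp hq (Fin.succ (0 : Fin (r' + 1))) = ⟨q, by omega⟩ := by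
      intro p q hp hq
      apply Fin.ext
      rw [ka_val]
      rfl
    have e2 : ∀ (p q p' q' : ℕ) (hp : p < 4) (hq : q < 4) (hp' : p' < 4) (hq' : q' < 4)
        (b : Fin r'), ka hn p q hp hq b.succ.succ = ka hn p' q' hp' hq' b.succ.succ := by
      intro p q p' q' hp hq hp' hq' b
      apply Fin.ext
      rw [ka_val, ka_val]
      simp
    simp only [e0, e1]
    have e3 : ∀ b : Fin r', ka hn 0 3 (by omega) (by omega) b.succ.succ =
        ka hn 0 2 (by omega) (by omega) b.succ.succ := fun b => e2 _ _ _ _ _ _ _ _ b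
    have e4 : ∀ b : Fin r', ka hn 1 2 (by omega) (by omega) b.succ.succ =
        ka hn 1 3 (by omega) (by omega) b.succ.succ := fun b => e2 _ _ _ _ _ _ _ _ b
    simp only [e3, e4]
    ring
  rw [← h2]
  exact h

/-- The nodes. -/
def nu (x y : Fin n) (s : Fin n) : ℕ := if s = y then (x : ℕ) else (s : ℕ)

lemma nu_inj {x y : Fin n} {ι : Type} {c : ι → Fin n} (hc : Function.Injective c)
    (h : (∀ b, c b ≠ x) ∨ ∀ b, c b ≠ y) : Function.Injective fun b => nu x y (c b) := by
  intro b b' hb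
  simp only [nu] at hb
  apply hc
  rcases h with h | h
  · split_ifs at hb with h1 h2 h2
    · rw [h1, h2]
    · exact absurd (Fin.ext hb).symm (h b')
    · exact absurd (Fin.ext hb) (h b)
    · exact Fin.ext hb
  · rw [if_neg (h b), if_neg (h b')] at hb
    exact Fin.ext hb

/-- The test points. -/
noncomputable def yp (m : ℕ) (x y : Fin n) : Fin m × Fin n → ℂ :=
  fun p => (nu x y p.2 : ℂ) ^ (p.1 : ℕ)

lemma eval_mi (hr : r < m) (c : Fin (r + 1) → Fin n) (x : Fin m × Fin n → ℂ) :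
    eval x (minor hr c) = Matrix.det (Matrix.of fun a b => x (rw' hr a, c b)) := by
  rw [minor, RingHom.map_det]
  congr 1
  ext a b
  rw [RingHom.mapMatrix_apply, Matrix.map_apply, Matrix.of_apply, Matrix.of_apply, eval_X]

lemma eval_yp (hr : r < m) (c : Fin (r + 1) → Fin n) (x y : Fin n) :
    eval (yp m x y) (minor hr c) ≠ 0 ↔ Function.Injective fun b => nu x y (c b) := by
  have h1 : (Matrix.of fun a b => yp m x y (rw' hr a, c b)) =
      (Matrix.vandermonde fun b => ((nu x y (c b) : ℕ) : ℂ)).transpose := by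
    ext a b
    rfl
  rw [eval_mi, h1, Matrix.det_transpose, Matrix.det_vandermonde_ne_zero_iff]
  constructor
  · intro h2 b b' hb
    exact h2 (congrArg (Nat.cast : ℕ → ℂ) hb)
  · intro h2 b b' hb
    exact h2 (Nat.cast_injective hb)

lemma AA_ne (hr : r < m) (hn : r + 4 ≤ n) {s : Fin n → Fin n} (hs : Function.Injective s) :
    AA hr hn s ≠ 0 :=
  mul_ne_zero (minor_ne_zero hr (hs.comp (ka_inj hn 0 2 _ _ (by omega))))
    (minor_ne_zero hr (hs.comp (ka_inj hn 1 3 _ _ (by omega))))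

/-- The choice of the permutation. -/
lemma ex_perm (hn : r + 4 ≤ n) (i h : Fin n) (hih : i ≠ h) : ∃ s : Equiv.Perm (Fin n),
    s ⟨0, by omega⟩ = i ∧ s ⟨n - 1, by omega⟩ = h := by
  classical
  obtain ⟨z, hz⟩ : ∃ z : Fin n, z = ⟨0, by omega⟩ := ⟨_, rfl⟩
  obtain ⟨l, hl⟩ : ∃ l : Fin n, l = ⟨n - 1, by omega⟩ := ⟨_, rfl⟩
  have hzl : z ≠ l := by
    rw [hz, hl]
    intro h
    have := congrArg Fin.val h
    simp only at this
    omega
  rw [← hz, ← hl]
  have ht : Equiv.swap z i h ≠ z := by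
    intro h1
    have h2 := congrArg (Equiv.swap z i) h1
    rw [Equiv.swap_apply_self, Equiv.swap_apply_left] at h2
    exact hih h2.symm
  refine ⟨Equiv.swap z i * Equiv.swap l (Equiv.swap z i h), ?_, ?_⟩
  · rw [Equiv.Perm.mul_apply, Equiv.swap_apply_of_ne_of_ne hzl ht.symm, Equiv.swap_apply_left]
  · rw [Equiv.Perm.mul_apply, Equiv.swap_apply_left, Equiv.swap_apply_self]

/-- The test. -/
lemma test (hr : r < m) (hn : r + 4 ≤ n) (hr2 : 2 ≤ r) (e : Equiv.Perm (Fin n)) (he : e ≠ 1) :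
    ∃ s : Equiv.Perm (Fin n), AA hr hn s * ren m e (BB hr hn s) -
      BB hr hn s * ren m e (AA hr hn s) ≠ 0 := by
  obtain ⟨h, hh⟩ : ∃ h, e h ≠ h := by
    by_contra hc
    push Not at hc
    exact he (Equiv.ext hc)
  obtain ⟨s, hs0, hsl⟩ := ex_perm hn (e h) h hh
  refine ⟨s, fun h0 => ?_⟩
  have h1 := congrArg (eval (yp m (s ⟨0, by omega⟩) (s ⟨3, by omega⟩))) h0
  have h03 : s ⟨0, by omega⟩ ≠ s ⟨3, by omega⟩ := by
    intro h2
    have := congrArg Fin.val (s.injective h2)
    simp at this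
  have hB : eval (yp m (s ⟨0, by omega⟩) (s ⟨3, by omega⟩)) (BB hr hn s) = 0 := by
    rw [BB, Te, map_mul]
    refine mul_eq_zero_of_left ?_ _
    by_contra h2
    rw [← ne_eq, eval_yp] at h2
    have h3 : (⟨0, by omega⟩ : Fin (r + 1)) = ⟨1, by omega⟩ := by
      apply h2
      have k0 : ka hn 0 3 (by omega) (by omega) (⟨0, by omega⟩ : Fin (r + 1)) =
          ⟨0, by omega⟩ := Fin.ext (by rw [ka_val]; rfl)
      have k1 : ka hn 0 3 (by omega) (by omega) (⟨1, by omega⟩ : Fin (r + 1)) =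
          ⟨3, by omega⟩ := Fin.ext (by rw [ka_val]; rfl)
      simp only [k0, k1, nu]
      rw [if_neg h03, if_pos trivial]
    have := congrArg Fin.val h3
    simp at this
  have hA : eval (yp m (s ⟨0, by omega⟩) (s ⟨3, by omega⟩)) (AA hr hn s) ≠ 0 := by
    rw [AA, Te, map_mul]
    refine mul_ne_zero ?_ ?_
    · rw [eval_yp]
      refine nu_inj (s.injective.comp (ka_inj hn 0 2 _ _ (by omega))) (Or.inr fun b hb => ?_)
      have h2 := congrArg Fin.val (s.injective hb)
      rw [ka_val] at h2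
      simp only at h2
      split_ifs at h2 <;> omega
    · rw [eval_yp]
      refine nu_inj (s.injective.comp (ka_inj hn 1 3 _ _ (by omega))) (Or.inl fun b hb => ?_)
      have h2 := congrArg Fin.val (s.injective hb)
      rw [ka_val] at h2
      simp only at h2
      split_ifs at h2
  have hout : ∀ (p q : ℕ) (hp : p < 4) (hq : q < 4) (b : Fin (r + 1)),
      e (s (ka hn p q hp hq b)) ≠ s ⟨0, by omega⟩ := by
    intro p q hp hq b hb
    rw [hs0] at hb
    have h2 := e.injective hb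
    rw [← hsl] at h2
    have h3 := congrArg Fin.val (s.injective h2)
    have h4 := ka_lt hr2 hn p q hp hq b
    simp only at h3
    omega
  have hE : eval (yp m (s ⟨0, by omega⟩) (s ⟨3, by omega⟩)) (ren m e (BB hr hn s)) ≠ 0 := by
    rw [BB, ren_Te, Te, map_mul]
    refine mul_ne_zero ?_ ?_
    · rw [eval_yp]
      exact nu_inj (e.injective.comp (s.injective.comp (ka_inj hn 0 3 _ _ (by omega))))
        (Or.inl fun b => hout _ _ _ _ b)
    · rw [eval_yp]
      exact nu_inj (e.injective.comp (s.injective.comp (ka_inj hn 1 2 _ _ (by omega))))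
        (Or.inl fun b => hout _ _ _ _ b)
  rw [map_sub, map_mul, map_mul, hB, zero_mul, sub_zero, map_zero] at h1
  exact mul_ne_zero hA hE h1

lemma KK_mul' {d d' : Fin n → ℕ} {mu mu' : Fin m → ℕ} {f g : MvPolynomial (Fin m × Fin n) ℂ}
    (hf : f ∈ KK m (Fin n) d mu) (hg : g ∈ KK m (Fin n) d' mu') :
    f * g ∈ KK m (Fin n) (d + d') (mu + mu') :=
  ⟨HW_mul hf.1 hg.1, Col.mul (fun v hv => hf.2 v hv) (fun v hv => hg.2 v hv)⟩

lemma KK_prod' {κ : Type} (t : Finset κ) {d : κ → Fin n → ℕ} {mu : κ → Fin m → ℕ}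
    {f : κ → MvPolynomial (Fin m × Fin n) ℂ} (hf : ∀ i ∈ t, f i ∈ KK m (Fin n) (d i) (mu i)) :
    ∏ i ∈ t, f i ∈ KK m (Fin n) (∑ i ∈ t, d i) (∑ i ∈ t, mu i) :=
  ⟨HW_prod t mu f fun i hi => (hf i hi).1,
    Col.prod t fun i hi v hv => (hf i hi).2 v hv⟩

/-- The total degree is constant. -/
lemma dg_const (hn : r + 4 ≤ n) (x y : Fin n) :
    ∑ s : Equiv.Perm (Fin n), dg hn s x = ∑ s : Equiv.Perm (Fin n), dg hn s y := by
  refine Fintype.sum_equiv (Equiv.mulLeft (Equiv.swap x y)) _ _ fun s => ?_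
  rw [dg, dg]
  have h : ∀ z : Fin n, (Equiv.mulLeft (Equiv.swap x y) s) z = y ↔ s z = x := by
    intro z
    have : (Equiv.mulLeft (Equiv.swap x y) s) z = Equiv.swap x y (s z) := rfl
    rw [this]
    constructor
    · intro h
      have h2 := congrArg (Equiv.swap x y) h
      rw [Equiv.swap_apply_self, Equiv.swap_apply_right] at h2
      exact h2
    · intro h
      rw [h, Equiv.swap_apply_left]
  simp only [h]

/-- **(N1)** -/
theorem labS : LabS := by
  classical
  intro m j n hj hjm hn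
  obtain ⟨r, rfl⟩ : ∃ r, j = r + 1 := ⟨j - 1, by omega⟩
  have hr : r < m := by omega
  have hn' : r + 4 ≤ n := by omega
  have hr2 : 2 ≤ r := by omega
  choose! S hS using fun (e : Equiv.Perm (Fin n)) (he : e ≠ 1) => test hr hn' hr2 e he
  -- the two polynomials
  let A : MvPolynomial (Fin m × Fin n) ℂ := ∏ s : Equiv.Perm (Fin n), AA hr hn' s
  let B : Equiv.Perm (Fin n) → MvPolynomial (Fin m × Fin n) ℂ := fun e =>
    BB hr hn' (S e) * ∏ s ∈ Finset.univ.erase (S e), AA hr hn' s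
  let l0 : ℕ := ∑ s : Equiv.Perm (Fin n), dg hn' s ⟨0, by omega⟩
  let d0 : Fin n → ℕ := fun _ => l0
  let mu0 : Fin m → ℕ := ∑ _s : Equiv.Perm (Fin n), (wt m r + wt m r)
  have hd : ∑ s : Equiv.Perm (Fin n), dg hn' s = d0 := by
    funext x
    rw [Finset.sum_apply]
    exact dg_const hn' x _
  have hA : A ∈ KK m (Fin n) d0 mu0 := by
    rw [← hd]
    exact KK_prod' Finset.univ fun s _ => AA_mem hr hn' s
  have hB : ∀ e, B e ∈ KK m (Fin n) d0 mu0 := by
    intro e
    have h1 := KK_mul' (BB_mem hr hn' hr2 (S e))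
      (KK_prod' (Finset.univ.erase (S e)) fun s _ => AA_mem hr hn' (s : Fin n → Fin n))
    rw [Finset.add_sum_erase _ (fun s : Equiv.Perm (Fin n) => dg hn' s) (Finset.mem_univ _),
      Finset.add_sum_erase _ (fun _ : Equiv.Perm (Fin n) => wt m r + wt m r)
        (Finset.mem_univ _), hd] at h1
    exact h1
  -- the differences
  have hD : ∀ e : Equiv.Perm (Fin n), e ≠ 1 →
      A * ren m e (B e) - B e * ren m e A ≠ 0 := by
    intro e he
    have hA2 : A = AA hr hn' (S e) * ∏ s ∈ Finset.univ.erase (S e), AA hr hn' s :=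
      (Finset.mul_prod_erase _ (fun s : Equiv.Perm (Fin n) => AA hr hn' s)
        (Finset.mem_univ _)).symm
    have h1 : A * ren m e (B e) - B e * ren m e A =
        (AA hr hn' (S e) * ren m e (BB hr hn' (S e)) -
          BB hr hn' (S e) * ren m e (AA hr hn' (S e))) *
        ((∏ s ∈ Finset.univ.erase (S e), AA hr hn' s) *
          ren m e (∏ s ∈ Finset.univ.erase (S e), AA hr hn' s)) := by
      rw [hA2]
      simp only [B, map_mul]
      ring
    rw [h1]
    have h2 : (∏ s ∈ Finset.univ.erase (S e), AA hr hn' (s : Fin n → Fin n)) ≠ 0 :=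
      Finset.prod_ne_zero_iff.2 fun s _ => AA_ne hr hn' s.injective
    refine mul_ne_zero (hS e he) (mul_ne_zero h2 ?_)
    intro h3
    exact h2 (ren_inj e.injective (h3.trans (map_zero _).symm))
  obtain ⟨x, hx⟩ : ∃ x : Fin m × Fin n → ℂ, eval x (∏ e ∈ Finset.univ.erase
      (1 : Equiv.Perm (Fin n)), (A * ren m e (B e) - B e * ren m e A)) ≠ 0 := by
    by_contra hc
    push Not at hc
    have hP : (∏ e ∈ Finset.univ.erase (1 : Equiv.Perm (Fin n)),
        (A * ren m e (B e) - B e * ren m e A)) ≠ 0 :=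
      Finset.prod_ne_zero_iff.2 fun e he => hD e (Finset.ne_of_mem_erase he)
    exact hP (MvPolynomial.funext fun x => by rw [hc x, map_zero])
  have hev : ∀ (e : Equiv.Perm (Fin n)) (F : MvPolynomial (Fin m × Fin n) ℂ),
      eval x (ren m e F) = eval (fun p : Fin m × Fin n => x (p.1, e p.2)) F := by
    intro e F
    rw [ren, eval_rename]
    rfl
  let Q : Equiv.Perm (Fin n) → MvPolynomial (Fin m × Fin n) ℂ := fun e =>
    (eval (fun p : Fin m × Fin n => x (p.1, e p.2)) (B e)) • A -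
      (eval (fun p : Fin m × Fin n => x (p.1, e p.2)) A) • B e
  have hQ : ∀ e, Q e ∈ KK m (Fin n) d0 mu0 := fun e =>
    Submodule.sub_mem _ (Submodule.smul_mem _ _ hA) (Submodule.smul_mem _ _ (hB e))
  let E : Finset (Equiv.Perm (Fin n)) := Finset.univ.erase 1
  have hE : 0 < E.card := by
    rw [Finset.card_pos]
    refine ⟨Equiv.swap ⟨0, by omega⟩ ⟨1, by omega⟩, Finset.mem_erase.2 ⟨?_, Finset.mem_univ _⟩⟩
    intro h
    have h2 := congrArg (fun s : Equiv.Perm (Fin n) => ((s ⟨0, by omega⟩ : Fin n) : ℕ)) h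
    simp only [Equiv.swap_apply_left, Equiv.Perm.one_apply] at h2
    omega
  refine ⟨E.card * (Fintype.card (Equiv.Perm (Fin n)) * 2), E.card * l0, ?_, ∏ e ∈ E, Q e, x,
    ?_, ?_, fun e he => ?_⟩
  · have : 0 < Fintype.card (Equiv.Perm (Fin n)) := Fintype.card_pos
    positivity
  · have h1 := KK_prod' E fun e _ => hQ e
    have e1 : ∑ _i ∈ E, d0 = fun _ => E.card * l0 := by
      funext y
      rw [Finset.sum_apply, Finset.sum_const, smul_eq_mul]
    have e2 : ∑ _i ∈ E, mu0 = fun i : Fin m => if (i : ℕ) < r + 1 then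
        E.card * (Fintype.card (Equiv.Perm (Fin n)) * 2) else 0 := by
      funext i
      rw [Finset.sum_apply, Finset.sum_const, smul_eq_mul]
      simp only [mu0]
      rw [Finset.sum_apply, Finset.sum_const, smul_eq_mul, Pi.add_apply, wt, Finset.card_univ]
      by_cases h : (i : ℕ) ≤ r
      · rw [if_pos h, if_pos (Nat.lt_succ_of_le h)]
      · rw [if_neg h, if_neg (by omega)]
        simp
    rw [e1, e2] at h1
    exact h1
  · rw [map_prod] at hx ⊢
    refine Finset.prod_ne_zero_iff.2 fun e he => ?_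
    have h1 := Finset.prod_ne_zero_iff.1 hx e he
    rw [(eval x).map_sub, (eval x).map_mul, (eval x).map_mul, hev, hev] at h1
    simp only [Q]
    rw [map_sub, smul_eval, smul_eval]
    intro h2
    apply h1
    rw [← h2]
    ring
  · rw [map_prod]
    refine Finset.prod_eq_zero (i := e) (Finset.mem_erase.2 ⟨he, Finset.mem_univ _⟩) ?_
    simp only [Q]
    rw [map_sub, smul_eval, smul_eval]
    ring

end Vale.Agent.P181.NR.H505
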